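import Vale.Agent.P022.H565.L3.TwoG
import Vale.Agent.P022.H542.L3.Act

/-!
# P022-L3, chapter G, row [2G], on the classes: `act σ` has 2-power order
-/

noncomputable section

namespace Vale.Agent.P022.H565.TwoG

open Vale.Agent.P022.H542.L3

variable {B : ℕ} [NeZero B] (G : Geo B)

/-- **[2G]** the order of `act σ` is a power of `2` -/
theorem act_two (n : ℕ) [Finite (G.V (2 ^ n))] (σ : ℂ ≃+* ℂ) :
    ∃ k : ℕ, (G.act (2 ^ n) σ) ^ 2 ^ k = 1 := by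
  obtain ⟨k, hk⟩ := twoG G (NeZero.ne B) n σ (G.s σ) (G.e_s σ)
  refine ⟨k, ?_⟩
  rw [← map_pow]
  ext v
  obtain ⟨f, hf, rfl⟩ := G.cl_surj v
  rw [G.act_cl]
  change G.cl (2 ^ n) _ _ = G.cl (2 ^ n) f hf
  rw [G.cl_eq_iff]
  obtain ⟨u, hu0, hu⟩ := hk f hf
  rw [G.mem_pw]
  refine ⟨(Units.mk0 u hu0)⁻¹, ?_⟩
  have h1 : G.su (σ ^ 2 ^ k) f = (Units.mk0 u hu0) ^ 2 ^ n * f := by
    apply Units.ext
    rw [G.val_su, map_pow, hu, Units.val_mul, Units.val_pow_eq_pow_val, Units.val_mk0]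
  rw [h1, inv_pow, mul_inv, mul_assoc, inv_mul_cancel, mul_one]

/-- the image of any group of automorphisms of `ℂ` is a 2-group -/
theorem act_isPGroup (n : ℕ) [Finite (G.V (2 ^ n))] : IsPGroup 2 (G.act (2 ^ n)).range := by
  rintro ⟨_, σ, rfl⟩
  obtain ⟨k, hk⟩ := act_two G n σ
  exact ⟨k, Subtype.ext hk⟩

end Vale.Agent.P022.H565.TwoG
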