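import Mathlib

/-!
# A Kummer tower over a Galois 2-extension is a Galois 2-extension

`F ⊂ K ⊂ L`, `K/F` finite Galois with a 2-group, `L` generated over `K` by finitely many `2^n`-th
roots of elements `f` of `K` such that all conjugates of `f` are `2^n`-th powers in `L`.
-/

open IntermediateField Polynomial

namespace Vale.Agent.P022.H565.Two

variable {F K L : Type*} [Field F] [Field K] [Field L] [Algebra F K] [Algebra K L] [Algebra F L]
  [IsScalarTower F K L]

/-- the fields, finiteness and normality -/
theorem tower_normal [CharZero F] [FiniteDimensional F K] [IsGalois F K]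
    (N : ℕ) (hN : 0 < N) (ζ : F) (hζ : IsPrimitiveRoot ζ N) (Y : Set L) (hY : Y.Finite)
    (htop : adjoin K Y = ⊤)
    (hr : ∀ y ∈ Y, ∃ f : K, y ^ N = algebraMap K L f ∧
      ∀ g : K ≃ₐ[F] K, ∃ z : L, z ^ N = algebraMap K L (g f)) :
    FiniteDimensional F L ∧ IsGalois F L := by
  have hint : ∀ y ∈ Y, IsIntegral K y := by
    intro y hy
    obtain ⟨f, hf, -⟩ := hr y hy
    refine ⟨X ^ N - C f, monic_X_pow_sub_C f hN.ne', ?_⟩
    rw [eval₂_sub, eval₂_pow, eval₂_X, eval₂_C, hf, sub_self]
  have : Finite Y := hY
  have hKL : FiniteDimensional K L := by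
    have h1 : FiniteDimensional K (adjoin K Y) := finiteDimensional_adjoin hint
    rw [htop] at h1
    exact (IntermediateField.topEquiv (F := K) (E := L)).toLinearEquiv.finiteDimensional
  have hFL : FiniteDimensional F L := FiniteDimensional.trans F K L
  refine ⟨hFL, ?_⟩
  have hsp : ∀ x ∈ Set.range (algebraMap K L) ∪ Y, IsIntegral F x ∧
      ((minpoly F x).map (algebraMap F L)).Splits := by
    intro x hx
    refine ⟨Algebra.IsIntegral.isIntegral x, ?_⟩
    rcases hx with ⟨a, rfl⟩ | hx
    · rw [minpoly.algebraMap_eq (algebraMap K L).injective, IsScalarTower.algebraMap_eq F K L,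
        ← Polynomial.map_map]
      exact (Normal.splits inferInstance a).map _
    · obtain ⟨f, hf, hg⟩ := hr x hx
      have h1 : minpoly F x ∣ expand F N (minpoly F f) := by
        apply minpoly.dvd
        rw [expand_aeval, hf, aeval_algebraMap_apply, minpoly.aeval, map_zero]
      have h2 : ((expand F N (minpoly F f)).map (algebraMap F L)).Splits := by
        rw [map_expand, IsScalarTower.algebraMap_eq F K L, ← Polynomial.map_map]
        have h3 : ((minpoly F f).map (algebraMap F K)).Splits := Normal.splits inferInstance f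
        rw [h3.eq_prod_roots, ((minpoly.monic (Algebra.IsIntegral.isIntegral f)).map _).leadingCoeff,
          map_one, one_mul, Polynomial.map_multiset_prod, Multiset.map_map, map_multiset_prod,
          Multiset.map_map]
        refine Splits.multisetProd ?_
        intro q hq
        obtain ⟨b, hb, rfl⟩ := Multiset.mem_map.1 hq
        have hb1 : aeval b (minpoly F f) = 0 := by
          have h4 := (mem_roots'.1 hb).2
          rwa [IsRoot, eval_map_algebraMap] at h4
        obtain ⟨g, hg1⟩ := minpoly.exists_algEquiv_of_root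
          (Algebra.IsAlgebraic.isAlgebraic f) hb1
        obtain ⟨z, hz⟩ := hg g.symm
        have h5 : (expand L N) (Polynomial.map (algebraMap K L) (X - C b)) =
            X ^ N - C (algebraMap K L b) := by
          rw [Polynomial.map_sub, map_X, map_C, map_sub, expand_X, expand_C]
        change ((expand L N) (Polynomial.map (algebraMap K L) (X - C b))).Splits
        rw [h5]
        exact X_pow_sub_C_splits_of_isPrimitiveRoot
          (hζ.map_of_injective (algebraMap F L).injective) (by rw [hz, ← hg1, AlgEquiv.symm_apply_apply])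
      exact h2.of_dvd (by
        rw [Ne, Polynomial.map_eq_zero]
        intro h6
        have h7 := expand_eq_zero (R := F) hN |>.1 h6
        exact minpoly.ne_zero (Algebra.IsIntegral.isIntegral f) h7) (Polynomial.map_dvd _ h1)
  have hall : ∀ x : L, x ∈ adjoin F (Set.range (algebraMap K L) ∪ Y) := by
    intro x
    have hx : x ∈ adjoin K Y := by
      rw [htop]
      trivial
    refine adjoin_induction K (p := fun x _ => x ∈ adjoin F (Set.range (algebraMap K L) ∪ Y))
      (fun y hy => subset_adjoin F _ (Or.inr hy)) (fun a => subset_adjoin F _ (Or.inl ⟨a, rfl⟩))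
      (fun a b _ _ ha hb => add_mem ha hb) (fun a _ ha => inv_mem ha)
      (fun a b _ _ ha hb => mul_mem ha hb) hx
  have hn : Normal F L := normal_iff.2 fun x =>
    ⟨Algebra.IsIntegral.isIntegral x, splits_of_mem_adjoin F L hsp (hall x)⟩
  exact { }

/-- the Galois group is a 2-group -/
theorem tower_two [CharZero F] [FiniteDimensional F K] [IsGalois F K]
    (hG : IsPGroup 2 (K ≃ₐ[F] K)) (n : ℕ) (ζ : F) (hζ : IsPrimitiveRoot ζ (2 ^ n)) (Y : Set L)
    (htop : adjoin K Y = ⊤)
    (hr : ∀ y ∈ Y, ∃ f : K, y ^ 2 ^ n = algebraMap K L f) : IsPGroup 2 (L ≃ₐ[F] L) := by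
  have hz : NeZero (2 ^ n) := ⟨by positivity⟩
  intro g
  obtain ⟨a, ha⟩ := hG (AlgEquiv.restrictNormalHom K g)
  rw [← map_pow] at ha
  set g' := g ^ 2 ^ a with hg'
  have hK : ∀ x : K, g' (algebraMap K L x) = algebraMap K L x := by
    intro x
    have h1 := AlgEquiv.restrictNormal_commutes g' K x
    have h2 : g'.restrictNormal K = 1 := ha
    rw [h2] at h1
    exact h1.symm
  have hKp : ∀ (m : ℕ) (x : K), (g' ^ m) (algebraMap K L x) = algebraMap K L x := by
    intro m
    induction m with
    | zero => intro x; rfl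
    | succ m ih =>
      intro x
      rw [pow_succ, AlgEquiv.mul_apply, hK, ih]
  have hY : ∀ y ∈ Y, (g' ^ 2 ^ n) y = y := by
    intro y hy
    obtain ⟨f, hf⟩ := hr y hy
    by_cases hy0 : y = 0
    · rw [hy0, map_zero]
    have h3 : (g' y / y) ^ 2 ^ n = 1 := by
      rw [div_pow, ← map_pow, hf, hK, div_self]
      rw [← hf]
      exact pow_ne_zero _ hy0
    obtain ⟨i, -, hi⟩ := (hζ.map_of_injective (algebraMap F L).injective).eq_pow_of_pow_eq_one h3
    have h4 : g' y = algebraMap F L (ζ ^ i) * y := by
      rw [map_pow, hi, div_mul_cancel₀ _ hy0]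
    have h5 : ∀ m : ℕ, (g' ^ m) y = algebraMap F L ((ζ ^ i) ^ m) * y := by
      intro m
      induction m with
      | zero => rw [pow_zero, pow_zero, map_one, one_mul, AlgEquiv.one_apply]
      | succ m ih =>
        rw [pow_succ, AlgEquiv.mul_apply, h4, map_mul, ih, AlgEquiv.commutes, pow_succ (ζ ^ i),
          map_mul]
        ring
    rw [h5, ← pow_mul, mul_comm i, pow_mul, hζ.pow_eq_one, one_pow, map_one, one_mul]
  refine ⟨a + n, ?_⟩
  rw [pow_add, pow_mul, ← hg']
  ext x
  have hx : x ∈ adjoin K Y := by
    rw [htop]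
    trivial
  refine adjoin_induction K (p := fun x _ => (g' ^ 2 ^ n) x = (1 : L ≃ₐ[F] L) x)
      (fun y hy => hY y hy) (fun a => hKp _ a)
      (fun a b _ _ ha hb => by rw [map_add, ha, hb, map_add])
      (fun a _ ha => by rw [map_inv₀, ha, map_inv₀])
      (fun a b _ _ ha hb => by rw [map_mul, ha, hb, map_mul]) hx

end Vale.Agent.P022.H565.Two
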