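import Mathlib

/-!
# Automorphisms of finite 2-groups, and semilinear automorphisms of Galois 2-extensions

`hall`: a group of automorphisms of a finite 2-group, acting trivially on the homomorphisms to
`ZMod 2`, is a 2-group.
-/

open MulAction

namespace Vale.Agent.P022.H565.Two

section Hall

variable {P : Type*} [Group P]

/-- a subgroup of index two is the kernel of a homomorphism to `ZMod 2` -/
theorem exists_ker (K : Subgroup P) (hK : K.index = 2) :
    ∃ χ : P →* Multiplicative (ZMod 2), χ.ker = K := by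
  have hn : K.Normal := Subgroup.normal_of_index_eq_two hK
  have h1 : Nat.card (P ⧸ K) = 2 := hK
  have h2 : Nat.card (Multiplicative (ZMod 2)) = 2 := by
    rw [Nat.card_eq_fintype_card]
    rfl
  have : Fact (Nat.Prime 2) := ⟨Nat.prime_two⟩
  let e : (P ⧸ K) ≃* Multiplicative (ZMod 2) := mulEquivOfPrimeCardEq h1 h2
  refine ⟨e.toMonoidHom.comp (QuotientGroup.mk' K), ?_⟩
  ext g
  simp

/-- a proper subgroup of a finite 2-group is contained in the kernel of a nontrivial
homomorphism to `ZMod 2` -/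
theorem exists_chi [Finite P] (hP : IsPGroup 2 P) (M : Subgroup P) (hM : M ≠ ⊤) :
    ∃ χ : P →* Multiplicative (ZMod 2), M ≤ χ.ker ∧ ∃ g, χ g ≠ 1 := by
  have : Fact (Nat.Prime 2) := ⟨Nat.prime_two⟩
  obtain ⟨k, hk⟩ := IsPGroup.iff_card.1 hP
  obtain ⟨m, hm⟩ := IsPGroup.iff_card.1 (hP.to_subgroup M)
  have hmk : m < k := by
    by_contra hlt
    push Not at hlt
    apply hM
    apply Subgroup.eq_top_of_card_eq
    apply le_antisymm (Subgroup.card_le_card_group M)
    rw [hk, hm]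
    exact Nat.pow_le_pow_right (by norm_num) hlt
  obtain ⟨K, hK, hMK⟩ := Sylow.exists_subgroup_card_pow_prime_le (p := 2) (n := m) (m := k - 1)
    (by rw [hk]; exact pow_dvd_pow 2 (by omega)) M hm (by omega)
  have hi : K.index = 2 := by
    have h := K.card_mul_index
    rw [hK, hk] at h
    have h2 : 2 ^ k = 2 ^ (k - 1) * 2 := by
      rw [← pow_succ]
      congr 1
      omega
    rw [h2] at h
    exact Nat.eq_of_mul_eq_mul_left (by positivity) h
  obtain ⟨χ, hχ⟩ := exists_ker K hi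
  refine ⟨χ, hχ ▸ hMK, ?_⟩
  by_contra hcon
  push Not at hcon
  have : K = ⊤ := by
    rw [← hχ]
    ext g
    simp [MonoidHom.mem_ker, hcon g]
  rw [this, Subgroup.index_top] at hi
  omega

/-- the maps `f : P → P` with `f x = x` modulo all homomorphisms to `ZMod 2` -/
def Tup (P : Type*) [Group P] : Type _ :=
  ∀ x : P, {y : P // ∀ χ : P →* Multiplicative (ZMod 2), χ y = χ x}

/-- the intersection of the kernels -/
def Fr (P : Type*) [Group P] : Subgroup P where
  carrier := {y | ∀ χ : P →* Multiplicative (ZMod 2), χ y = 1}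
  one_mem' χ := map_one χ
  mul_mem' {a b} ha hb χ := by rw [map_mul, ha χ, hb χ, one_mul]
  inv_mem' {a} ha χ := by rw [map_inv, ha χ, inv_one]

theorem card_tup [Finite P] : Nat.card (Tup P) = Nat.card (Fr P) ^ Nat.card P := by
  have h : ∀ x : P, Nat.card {y : P // ∀ χ : P →* Multiplicative (ZMod 2), χ y = χ x} =
      Nat.card (Fr P) := by
    intro x
    refine Nat.card_congr
      { toFun := fun y => ⟨x⁻¹ * y.1, fun χ => by rw [map_mul, map_inv, y.2 χ, inv_mul_cancel]⟩
        invFun := fun y => ⟨x * y.1, fun χ => by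
          have h1 : χ y.1 = 1 := y.2 χ
          rw [map_mul, h1, mul_one]⟩
        left_inv := fun y => by ext; simp
        right_inv := fun y => by ext; simp }
  cases nonempty_fintype P
  rw [Tup, Nat.card_pi, Finset.prod_congr rfl fun x _ => h x, Finset.prod_const,
    Finset.card_univ, ← Nat.card_eq_fintype_card (α := P)]

/-- **an automorphism group of a finite 2-group which acts trivially on the homomorphisms to
`ZMod 2` is a 2-group** -/
theorem hall [Finite P] (hP : IsPGroup 2 P) (A : Subgroup (MulAut P))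
    (h : ∀ σ ∈ A, ∀ χ : P →* Multiplicative (ZMod 2), ∀ g, χ (σ g) = χ g) : IsPGroup 2 A := by
  have h2 : Fact (Nat.Prime 2) := ⟨Nat.prime_two⟩
  have hfin : Finite (MulAut P) := by
    have : Function.Injective (fun σ : MulAut P => (σ : P → P)) := fun a b hab => by
      ext x
      exact congrFun hab x
    exact Finite.of_injective _ this
  rw [IsPGroup.iff_card]
  have hne : Nat.card A ≠ 0 := Nat.card_pos.ne'
  refine ⟨(Nat.card A).primeFactorsList.length, Nat.eq_prime_pow_of_unique_prime_dvd hne ?_⟩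
  intro q hq hqd
  by_contra hq2
  have hqf : Fact q.Prime := ⟨hq⟩
  obtain ⟨σ, hσ⟩ := exists_prime_orderOf_dvd_card' q hqd
  let Z : Subgroup A := Subgroup.zpowers σ
  have hZ : IsPGroup q Z := by
    refine IsPGroup.of_card (n := 1) ?_
    rw [Nat.card_zpowers, hσ, pow_one]
  let act : MulAction Z (Tup P) :=
    { smul := fun z f x => ⟨(z.1.1 : MulAut P) (f x).1, fun χ => by
        rw [h z.1.1 z.1.2 χ, (f x).2 χ]⟩
      one_smul := fun f => by
        funext x
        apply Subtype.ext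
        rfl
      mul_smul := fun a b f => by
        funext x
        apply Subtype.ext
        rfl }
  have hfT : Finite (Tup P) := by
    cases nonempty_fintype P
    rw [Tup]
    infer_instance
  have hmod := hZ.card_modEq_card_fixedPoints (Tup P)
  have hex : (fixedPoints Z (Tup P)).Nonempty := by
    rw [Set.nonempty_iff_ne_empty]
    intro he
    rw [he, Nat.card_of_isEmpty (α := (∅ : Set (Tup P)))] at hmod
    have h3 : q ∣ Nat.card (Tup P) := (Nat.modEq_zero_iff_dvd).1 hmod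
    rw [card_tup] at h3
    have h4 := hq.dvd_of_dvd_pow h3
    obtain ⟨m, hm⟩ := IsPGroup.iff_card.1 (hP.to_subgroup (Fr P))
    rw [hm] at h4
    have h5 := (Nat.prime_dvd_prime_iff_eq hq Nat.prime_two).1 (hq.dvd_of_dvd_pow h4)
    exact hq2 h5
  obtain ⟨f, hf⟩ := hex
  have hfix : ∀ x, (σ.1 : MulAut P) (f x).1 = (f x).1 := by
    intro x
    have h6 := hf ⟨σ, Subgroup.mem_zpowers σ⟩
    exact congrArg (fun F : Tup P => (F x).1) h6
  have htop : Subgroup.closure (Set.range fun x => (f x).1) = ⊤ := by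
    by_contra hcon
    obtain ⟨χ, hχ, g, hg⟩ := exists_chi hP _ hcon
    apply hg
    rw [← (f g).2 χ]
    exact MonoidHom.mem_ker.1 (hχ (Subgroup.subset_closure ⟨g, rfl⟩))
  have hone : (σ.1 : MulAut P) = 1 := by
    have h7 : (σ.1 : MulAut P).toMonoidHom = (MonoidHom.id P) := by
      refine MonoidHom.eq_of_eqOn_top ?_
      rw [← htop]
      refine MonoidHom.eqOn_closure ?_
      rintro _ ⟨x, rfl⟩
      exact hfix x
    ext x
    exact DFunLike.congr_fun h7 x
  have h8 : σ = 1 := Subtype.ext hone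
  rw [h8, orderOf_one] at hσ
  exact hq.one_lt.ne' hσ.symm

/-- elementwise form: an automorphism of a finite 2-group which acts trivially on the
homomorphisms to `ZMod 2` has 2-power order -/
theorem hall_one [Finite P] (hP : IsPGroup 2 P) (σ : MulAut P)
    (h : ∀ χ : P →* Multiplicative (ZMod 2), ∀ g, χ (σ g) = χ g) : ∃ k : ℕ, σ ^ 2 ^ k = 1 := by
  have h1 : IsPGroup 2 (Subgroup.zpowers σ) := by
    refine hall hP _ fun τ hτ χ => ?_
    let B : Subgroup (MulAut P) :=
      { carrier := {τ | ∀ g, χ (τ g) = χ g}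
        one_mem' := fun g => rfl
        mul_mem' := fun {a b} ha hb g => by
          rw [MulAut.mul_apply, ha, hb]
        inv_mem' := fun {a} ha g => by
          rw [← ha (a⁻¹ g), MulAut.apply_inv_self] }
    have hB : Subgroup.zpowers σ ≤ B := by
      rw [Subgroup.zpowers_le]
      exact fun g => h χ g
    exact hB hτ
  obtain ⟨k, hk⟩ := h1 ⟨σ, Subgroup.mem_zpowers σ⟩
  exact ⟨k, congrArg Subtype.val hk⟩

end Hall

section Field

variable {F L : Type*} [Field F] [Field L] [Algebra F L]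

/-- conjugation by a semilinear automorphism `σ` of `L` with `σ F = F` -/
def cj (σ : L ≃+* L) (h1 : ∀ x : F, ∃ y : F, σ (algebraMap F L x) = algebraMap F L y)
    (h2 : ∀ x : F, ∃ y : F, σ.symm (algebraMap F L x) = algebraMap F L y) :
    MulAut (L ≃ₐ[F] L) where
  toFun g := AlgEquiv.ofRingEquiv (f := (σ.symm.trans g.toRingEquiv).trans σ) (by
    intro x
    obtain ⟨y, hy⟩ := h2 x
    change σ (g (σ.symm (algebraMap F L x))) = algebraMap F L x
    rw [hy, g.commutes, ← hy, σ.apply_symm_apply])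
  invFun g := AlgEquiv.ofRingEquiv (f := (σ.trans g.toRingEquiv).trans σ.symm) (by
    intro x
    obtain ⟨y, hy⟩ := h1 x
    change σ.symm (g (σ (algebraMap F L x))) = algebraMap F L x
    rw [hy, g.commutes, ← hy, σ.symm_apply_apply])
  left_inv g := by
    ext x
    change σ.symm (σ (g (σ.symm (σ x)))) = g x
    rw [σ.symm_apply_apply, σ.symm_apply_apply]
  right_inv g := by
    ext x
    change σ (σ.symm (g (σ (σ.symm x)))) = g x
    rw [σ.apply_symm_apply, σ.apply_symm_apply]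
  map_mul' a b := by
    ext x
    change σ (a (b (σ.symm x))) = σ (a (σ.symm (σ (b (σ.symm x)))))
    rw [σ.symm_apply_apply]

theorem cj_apply (σ : L ≃+* L) (h1 : ∀ x : F, ∃ y : F, σ (algebraMap F L x) = algebraMap F L y)
    (h2 : ∀ x : F, ∃ y : F, σ.symm (algebraMap F L x) = algebraMap F L y) (g : L ≃ₐ[F] L) (x : L) :
    cj σ h1 h2 g x = σ (g (σ.symm x)) := rfl

theorem cj_pow_apply (σ : L ≃+* L)
    (h1 : ∀ x : F, ∃ y : F, σ (algebraMap F L x) = algebraMap F L y)
    (h2 : ∀ x : F, ∃ y : F, σ.symm (algebraMap F L x) = algebraMap F L y) (n : ℕ)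
    (g : L ≃ₐ[F] L) (x : L) :
    (cj σ h1 h2 ^ n) g ((σ ^ n) x) = (σ ^ n) (g x) := by
  induction n generalizing g x with
  | zero => rfl
  | succ n ih =>
    rw [pow_succ, pow_succ, MulAut.mul_apply]
    change (cj σ h1 h2 ^ n) (cj σ h1 h2 g) ((σ ^ n) (σ x)) = (σ ^ n) (σ (g x))
    rw [ih, cj_apply, σ.symm_apply_apply]

/-- a homomorphism to `ZMod 2` is given by the action on an element `s` with `s ^ 2 ∈ F` -/
theorem exists_sqrt [FiniteDimensional F L] [IsGalois F L]
    (χ : (L ≃ₐ[F] L) →* Multiplicative (ZMod 2)) :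
    ∃ s : L, s ≠ 0 ∧ (∃ a : F, s ^ 2 = algebraMap F L a) ∧
      ∀ g : L ≃ₐ[F] L, g s = (if χ g = 1 then 1 else -1) * s := by
  let sg : Multiplicative (ZMod 2) → Lˣ := fun x => if x = 1 then 1 else -1
  have hsg : ∀ x y, sg (x * y) = sg x * sg y := by
    have key : ∀ x y : Multiplicative (ZMod 2), (x * y = 1) ↔ ((x = 1) ↔ (y = 1)) := by decide
    intro x y
    by_cases hx : x = 1 <;> by_cases hy : y = 1
    · simp [sg, hx, hy]
    · simp [sg, hx, hy]
    · simp [sg, hx, hy]
    · have h1 : x * y = 1 := (key x y).2 (iff_of_false hx hy)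
      simp [sg, hx, hy, h1]
  have hfix : ∀ (g : L ≃ₐ[F] L) x, g • sg x = sg x := by
    intro g x
    apply Units.ext
    by_cases hx : x = 1
    · simp [sg, hx]
    · simp [sg, hx]
  have hc : groupCohomology.IsMulCocycle₁ (fun g : L ≃ₐ[F] L => sg (χ g)) := by
    intro g h
    change sg (χ (g * h)) = g • sg (χ h) * sg (χ g)
    rw [map_mul, hsg, hfix, mul_comm]
  obtain ⟨β, hβ⟩ := groupCohomology.isMulCoboundary₁_of_isMulCocycle₁_of_aut_to_units _ hc
  have hg : ∀ g : L ≃ₐ[F] L, g (β : L) = (if χ g = 1 then 1 else -1) * (β : L) := by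
    intro g
    have h1 : g • β / β = sg (χ g) := hβ g
    have h2 : g • β = sg (χ g) * β := by
      rw [← h1, div_mul_cancel]
    have h3 := congrArg Units.val h2
    rw [Units.val_mul] at h3
    have h4 : ((sg (χ g) : Lˣ) : L) = if χ g = 1 then 1 else -1 := by
      by_cases hx : χ g = 1
      · simp [sg, hx]
      · simp [sg, hx]
    rw [h4] at h3
    exact h3
  refine ⟨β, β.ne_zero, ?_, hg⟩
  have h5 : ∀ g : L ≃ₐ[F] L, g ((β : L) ^ 2) = (β : L) ^ 2 := by
    intro g
    rw [map_pow, hg g]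
    split_ifs <;> ring
  obtain ⟨a, ha⟩ := (IsGalois.mem_range_algebraMap_iff_fixed (F := F) ((β : L) ^ 2)).2 h5
  exact ⟨a, ha.symm⟩

/-- the conjugation by `σ` is trivial on the homomorphisms to `ZMod 2` when `σ` preserves the
lines `F s`, `s ^ 2 ∈ F` -/
theorem cj_chi [FiniteDimensional F L] [IsGalois F L] (σ : L ≃+* L)
    (h1 : ∀ x : F, ∃ y : F, σ (algebraMap F L x) = algebraMap F L y)
    (h2 : ∀ x : F, ∃ y : F, σ.symm (algebraMap F L x) = algebraMap F L y)
    (h3 : ∀ s : L, (∃ a : F, s ^ 2 = algebraMap F L a) → ∃ c : F, σ s = algebraMap F L c * s)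
    (h0 : (-1 : L) ≠ 1)
    (χ : (L ≃ₐ[F] L) →* Multiplicative (ZMod 2)) (g : L ≃ₐ[F] L) :
    χ (cj σ h1 h2 g) = χ g := by
  · obtain ⟨s, hs, hs2, hg⟩ := exists_sqrt χ
    obtain ⟨c, hc⟩ := h3 s hs2
    have hc0 : algebraMap F L c ≠ 0 := by
      intro h4
      rw [h4, zero_mul] at hc
      exact hs ((map_eq_zero_iff σ σ.injective).1 hc)
    obtain ⟨d, hd⟩ := h2 c
    have hd0 : algebraMap F L d ≠ 0 := by
      rw [← hd]
      exact (map_ne_zero_iff σ.symm σ.symm.injective).2 hc0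
    have hsy : σ.symm s = (algebraMap F L d)⁻¹ * s := by
      have h5 := congrArg σ.symm hc
      rw [σ.symm_apply_apply, map_mul, hd] at h5
      exact (eq_inv_mul_iff_mul_eq₀ hd0).2 h5.symm
    have h6 : cj σ h1 h2 g s = (if χ g = 1 then 1 else -1) * s := by
      rw [cj_apply, hsy, map_mul, map_inv₀, g.commutes, hg g]
      have h7 : (algebraMap F L d)⁻¹ * ((if χ g = 1 then 1 else -1) * s) =
          (if χ g = 1 then 1 else -1) * σ.symm s := by
        rw [hsy]
        ring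
      rw [h7, map_mul, σ.apply_symm_apply]
      split_ifs <;> simp
    rw [hg] at h6
    have h8 := mul_right_cancel₀ hs h6
    have hz : ∀ x : Multiplicative (ZMod 2), x ≠ 1 → x = Multiplicative.ofAdd 1 := by decide
    by_cases ha : χ (cj σ h1 h2 g) = 1 <;> by_cases hb : χ g = 1
    · rw [ha, hb]
    · rw [if_pos ha, if_neg hb] at h8
      exact absurd h8.symm h0
    · rw [if_neg ha, if_pos hb] at h8
      exact absurd h8 h0
    · rw [hz _ ha, hz _ hb]

/-- a 2-power of `σ` commutes with the Galois group -/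
theorem exists_commute [FiniteDimensional F L] [IsGalois F L] (hG : IsPGroup 2 (L ≃ₐ[F] L))
    (σ : L ≃+* L) (h1 : ∀ x : F, ∃ y : F, σ (algebraMap F L x) = algebraMap F L y)
    (h2 : ∀ x : F, ∃ y : F, σ.symm (algebraMap F L x) = algebraMap F L y)
    (h3 : ∀ s : L, (∃ a : F, s ^ 2 = algebraMap F L a) → ∃ c : F, σ s = algebraMap F L c * s)
    (h0 : (-1 : L) ≠ 1) :
    ∃ k : ℕ, ∀ (g : L ≃ₐ[F] L) (x : L), g ((σ ^ 2 ^ k) x) = (σ ^ 2 ^ k) (g x) := by
  obtain ⟨k, hk⟩ := hall_one hG (cj σ h1 h2) (fun χ g => cj_chi σ h1 h2 h3 h0 χ g)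
  refine ⟨k, fun g x => ?_⟩
  rw [← cj_pow_apply σ h1 h2, hk, MulAut.one_apply]

/-- a 2-power of `σ` fixes the `2 ^ n`-th roots of unity -/
theorem exists_root (σ : L ≃+* L) (n : ℕ) :
    ∃ k : ℕ, ∀ z : L, z ^ 2 ^ n = 1 → (σ ^ 2 ^ k) z = z := by
  have hz : NeZero (2 ^ n) := ⟨by positivity⟩
  have hP : IsPGroup 2 (rootsOfUnity (2 ^ n) L) := fun x => ⟨n, by
    apply Subtype.ext
    exact x.2⟩
  let τ : MulAut (rootsOfUnity (2 ^ n) L) := σ.toMulEquiv.restrictRootsOfUnity (2 ^ n)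
  have hτ : ∀ x : rootsOfUnity (2 ^ n) L, (((τ x : Lˣ)) : L) = σ ((x : Lˣ) : L) := fun x => rfl
  have hpow : ∀ (m : ℕ) (x : rootsOfUnity (2 ^ n) L),
      ((((τ ^ m) x : Lˣ)) : L) = (σ ^ m) ((x : Lˣ) : L) := by
    intro m
    induction m with
    | zero => intro x; rfl
    | succ m ih =>
      intro x
      rw [pow_succ, pow_succ, MulAut.mul_apply, ih, hτ]
      rfl
  obtain ⟨k, hk⟩ := hall_one hP τ (by
    intro χ x
    obtain ⟨m, hm⟩ := map_rootsOfUnity_eq_pow_self σ.toMulEquiv x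
    have hx : τ x = x ^ m := by
      apply Subtype.ext
      apply Units.ext
      rw [hτ]
      exact hm
    have h2 : ∀ y : Multiplicative (ZMod 2), y ^ 2 = 1 := by decide
    rcases Nat.even_or_odd m with he | ho
    · -- then `x` is trivial
      obtain ⟨j, hj⟩ := (Nat.dvd_prime_pow Nat.prime_two).1
        (orderOf_dvd_of_pow_eq_one (Subtype.ext x.2 : x ^ 2 ^ n = 1))
      have hox : orderOf (τ x) = orderOf x := MulEquiv.orderOf_eq τ x
      rcases Nat.eq_zero_or_pos j with h0 | h0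
      · rw [h0, pow_zero] at hj
        have hx1 : x = 1 := orderOf_eq_one_iff.1 hj.2
        rw [hx1, map_one]
      · exfalso
        have h5 : τ x ^ 2 ^ (j - 1) = 1 := by
          obtain ⟨c, hc⟩ := he
          rw [hx, ← pow_mul, ← two_mul] at *
          have h6 : m * 2 ^ (j - 1) = c * 2 ^ j := by
            have h7 : 2 ^ j = 2 ^ (j - 1) * 2 := by
              rw [← pow_succ]
              congr 1
              omega
            rw [hc, h7]
            ring
          rw [h6, mul_comm c, pow_mul, ← hj.2, pow_orderOf_eq_one, one_pow]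
        have h6 := orderOf_dvd_of_pow_eq_one h5
        rw [hox, hj.2] at h6
        have h7 := (Nat.pow_dvd_pow_iff_le_right (by norm_num : 1 < 2)).1 h6
        omega
    · obtain ⟨c, hc⟩ := ho
      rw [hx, map_pow, hc, pow_succ, pow_mul, h2, one_pow, one_mul])
  refine ⟨k, fun z hz1 => ?_⟩
  have h8 := hpow (2 ^ k) (rootsOfUnity.mkOfPowEq z hz1)
  rw [hk] at h8
  simpa using h8.symm

/-- **a 2-power of `σ` acts trivially on the classes modulo `K^(2^n)` of the `f ∈ K` which are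
`2^n`-th powers in `L`** -/
theorem exists_triv [FiniteDimensional F L] [IsGalois F L] (hG : IsPGroup 2 (L ≃ₐ[F] L))
    (σ : L ≃+* L) (h1 : ∀ x : F, ∃ y : F, σ (algebraMap F L x) = algebraMap F L y)
    (h2 : ∀ x : F, ∃ y : F, σ.symm (algebraMap F L x) = algebraMap F L y)
    (h3 : ∀ s : L, (∃ a : F, s ^ 2 = algebraMap F L a) → ∃ c : F, σ s = algebraMap F L c * s)
    (h0 : (-1 : L) ≠ 1) (n : ℕ) :
    ∃ k : ℕ, ∀ (K : IntermediateField F L) (h : L), h ≠ 0 → h ^ 2 ^ n ∈ K →
      ∃ u ∈ K, u ≠ 0 ∧ (σ ^ 2 ^ k) h = u * h ∧ (σ ^ 2 ^ k) (h ^ 2 ^ n) = u ^ 2 ^ n * h ^ 2 ^ n := by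
  obtain ⟨k1, hk1⟩ := exists_commute hG σ h1 h2 h3 h0
  obtain ⟨k2, hk2⟩ := exists_root σ n
  have hc : ∀ m, ∀ (g : L ≃ₐ[F] L) (x : L), g (((σ ^ 2 ^ k1) ^ m) x) = ((σ ^ 2 ^ k1) ^ m) (g x) := by
    intro m
    induction m with
    | zero => intro g x; rfl
    | succ m ih =>
      intro g x
      rw [pow_succ]
      change g (((σ ^ 2 ^ k1) ^ m) ((σ ^ 2 ^ k1) x)) = ((σ ^ 2 ^ k1) ^ m) ((σ ^ 2 ^ k1) (g x))
      rw [ih, hk1]
  have hr : ∀ m, ∀ z : L, z ^ 2 ^ n = 1 → ((σ ^ 2 ^ k2) ^ m) z = z := by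
    intro m z hz
    induction m with
    | zero => rfl
    | succ m ih =>
      rw [pow_succ]
      change ((σ ^ 2 ^ k2) ^ m) ((σ ^ 2 ^ k2) z) = z
      rw [hk2 z hz, ih]
  refine ⟨k1 + k2, fun K h hh hK => ?_⟩
  have e1 : σ ^ 2 ^ (k1 + k2) = (σ ^ 2 ^ k1) ^ 2 ^ k2 := by rw [← pow_mul, pow_add]
  have e2 : σ ^ 2 ^ (k1 + k2) = (σ ^ 2 ^ k2) ^ 2 ^ k1 := by rw [← pow_mul, ← pow_add, add_comm]
  have hne : (σ ^ 2 ^ (k1 + k2)) h ≠ 0 := (map_ne_zero_iff _ (RingEquiv.injective _)).2 hh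
  have hu : (σ ^ 2 ^ (k1 + k2)) h / h ∈ K := by
    rw [← IsGalois.fixedField_fixingSubgroup K, IntermediateField.mem_fixedField_iff]
    intro g hg
    have hgf : g (h ^ 2 ^ n) = h ^ 2 ^ n := (IntermediateField.mem_fixingSubgroup_iff K g).1 hg _ hK
    have hz : (g h / h) ^ 2 ^ n = 1 := by
      rw [div_pow, ← map_pow, hgf, div_self (pow_ne_zero _ hh)]
    have hgh : g h = (g h / h) * h := by rw [div_mul_cancel₀ _ hh]
    have hgne : g h ≠ 0 := (map_ne_zero_iff _ g.injective).2 hh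
    have h5 : g ((σ ^ 2 ^ (k1 + k2)) h) = (g h / h) * (σ ^ 2 ^ (k1 + k2)) h := by
      have h6 : g ((σ ^ 2 ^ (k1 + k2)) h) = (σ ^ 2 ^ (k1 + k2)) (g h) := by
        rw [e1]
        exact hc _ g h
      rw [h6]
      conv_lhs => rw [hgh]
      rw [map_mul]
      congr 1
      rw [e2]
      exact hr _ _ hz
    rw [map_div₀, h5]
    field_simp
  refine ⟨_, hu, div_ne_zero hne hh, (div_mul_cancel₀ _ hh).symm, ?_⟩
  rw [map_pow, div_pow, div_mul_cancel₀ _ (pow_ne_zero _ hh)]

end Field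

end Vale.Agent.P022.H565.Two
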