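import Vale.Agent.P022.H542.L3.Geo
import Vale.Agent.P022.H964.L3.Sqc
import Vale.Agent.P022.H565.L3.Two
import Vale.Agent.P022.H565.L3.Tow

/-!
# P022-L3, chapter G, row [2G]: coefficientwise automorphisms act on the classes through a 2-group
-/

noncomputable section

open HahnSeries
open scoped IntermediateField

namespace Vale.Agent.P022.H565.TwoG

open Vale.Agent.P022.H542.L3 Vale.Agent.P022.H565.Two Vale.Agent.P022.H964.L3

theorem dvd_order_sb (m : ℕ) (hm : 0 < m) (x : LS) : (m : ℤ) ∣ (sb m hm x).order := by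
  by_contra h
  have h1 := coeff_sb_of_not_dvd m hm x _ h
  have h2 : sb m hm x = 0 := HahnSeries.coeff_order_eq_zero.1 h1
  rw [h2, HahnSeries.order_zero] at h
  exact h (dvd_zero _)

variable {B : ℕ} (G : Geo B)

section Semi

variable {G} {σ : ℂ ≃+* ℂ} {φ : G.K ≃+* G.K}

theorem phi_C (hφ : ∀ x, G.e (φ x) = cm σ (G.e x)) (c : ℂ) :
    φ (algebraMap ℂ G.K c) = algebraMap ℂ G.K (σ c) := by
  apply G.e.toRingHom.injective
  change G.e _ = G.e _
  rw [hφ, AlgHom.commutes, AlgHom.commutes, algMap, algMap, cm_C]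

theorem phi_symm (hφ : ∀ x, G.e (φ x) = cm σ (G.e x)) (x : G.K) :
    G.e (φ.symm x) = cm σ.symm (G.e x) := by
  have h := hφ (φ.symm x)
  rw [RingEquiv.apply_symm_apply] at h
  rw [h, cm_symm]

theorem phi_R (hB : B ≠ 0) (hφ : ∀ x, G.e (φ x) = cm σ (G.e x)) (r : G.K) (hr : r ∈ G.R) :
    φ r = r := by
  apply G.e.toRingHom.injective
  change G.e _ = G.e _
  rw [hφ]
  ext n
  rw [coeff_cm]
  obtain ⟨m, hm⟩ := G.int r hr
  obtain ⟨z, hz⟩ := hm n
  have h1 := congrArg σ hz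
  rw [map_mul, map_pow, map_natCast, map_intCast, ← hz] at h1
  exact mul_left_cancel₀ (pow_ne_zero m (Nat.cast_ne_zero.2 hB)) h1

theorem phi_U (hB : B ≠ 0) (hφ : ∀ x, G.e (φ x) = cm σ (G.e x)) (N : ℕ) (f g : G.Kˣ)
    (hf : f ∈ G.U N) (hg : (g : G.K) = φ f) : g ∈ G.U N := by
  intro a ha θ hθ
  let θ' : G.K →ₐ[ℂ] LS :=
    { toRingHom := ((cm σ.symm : LS →+* LS).comp (θ : G.K →+* LS)).comp (φ : G.K →+* G.K)
      commutes' := fun c => by
        change cm σ.symm (θ (φ (algebraMap ℂ G.K c))) = _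
        rw [phi_C hφ, AlgHom.commutes, algMap, algMap, cm_C, RingEquiv.symm_apply_apply] }
  have h1 : θ' ∈ G.Pt (σ.symm a) := by
    change cm σ.symm (θ (φ G.p)) = _
    rw [phi_R hB hφ _ G.pR, hθ, map_add, cm_C, cm_single, map_one]
  have h2 : G.Aff (σ.symm a) := by
    intro s hs h3
    apply ha s hs
    rw [RingEquiv.symm_apply_eq, map_ratCast] at h3
    exact h3
  have h4 := hf _ h2 θ' h1
  have h5 : θ' (f : G.K) = cm σ.symm (θ (g : G.K)) := by
    rw [hg]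
    rfl
  rwa [h5, order_cm] at h4

theorem phi_F (hB : B ≠ 0) (hφ : ∀ x, G.e (φ x) = cm σ (G.e x)) (x : G.K) (hx : x ∈ ℂ⟮G.p⟯) :
    φ x ∈ ℂ⟮G.p⟯ := by
  refine IntermediateField.adjoin_induction ℂ (p := fun x _ => φ x ∈ ℂ⟮G.p⟯) ?_ ?_ ?_ ?_ ?_ hx
  · rintro y hy
    rw [Set.mem_singleton_iff] at hy
    rw [hy, phi_R hB hφ _ G.pR]
    exact IntermediateField.mem_adjoin_simple_self ℂ G.p
  · intro c
    rw [phi_C hφ]
    exact IntermediateField.algebraMap_mem _ _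
  · intro a b _ _ ha hb
    rw [map_add]
    exact add_mem ha hb
  · intro a _ ha
    rw [map_inv₀]
    exact inv_mem ha
  · intro a b _ _ ha hb
    rw [map_mul]
    exact mul_mem ha hb

end Semi

/-- the Galois group preserves `U` -/
theorem gal_U (N : ℕ) (g : G.K ≃ₐ[ℂ⟮G.p⟯] G.K) (f h : G.Kˣ) (hf : f ∈ G.U N)
    (hh : (h : G.K) = g f) : h ∈ G.U N := by
  intro a ha θ hθ
  let θ' : G.K →ₐ[ℂ] LS := θ.comp ((g : G.K →ₐ[ℂ⟮G.p⟯] G.K).restrictScalars ℂ)
  have h1 : θ' ∈ G.Pt a := by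
    change θ (g G.p) = _
    have h2 : g G.p = G.p := by
      have h3 := g.commutes ⟨G.p, IntermediateField.mem_adjoin_simple_self ℂ G.p⟩
      exact h3
    rw [h2]
    exact hθ
  have h4 := hf a ha θ' h1
  have h5 : θ' (f : G.K) = θ (h : G.K) := by
    rw [hh]
    rfl
  rwa [h5] at h4

/-- **[2G]** for every `σ` some `2^k`-th power of the semilinear extension of `σ` acts trivially on
the classes `U(2^n) / (Kˣ)^(2^n)` -/
theorem twoG (hB : B ≠ 0) (n : ℕ) [Finite (G.V (2 ^ n))] (σ : ℂ ≃+* ℂ) (φ : G.K ≃+* G.K)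
    (hφ : ∀ x, G.e (φ x) = cm σ (G.e x)) :
    ∃ k : ℕ, ∀ f ∈ G.U (2 ^ n), ∃ u : G.K, u ≠ 0 ∧ (φ ^ 2 ^ k) (f : G.K) = u ^ 2 ^ n * f := by
  classical
  have hN : 0 < 2 ^ n := by positivity
  have hNz : NeZero (2 ^ n) := ⟨hN.ne'⟩
  set N := 2 ^ n with hNd
  let ι : G.K →+* LS := (sb N hN).comp (G.e : G.K →+* LS)
  let algK : Algebra G.K LS := ι.toAlgebra
  have hι : ∀ x, algebraMap G.K LS x = sb N hN (G.e x) := fun x => rfl
  have tw : @IsScalarTower ℂ G.K LS G.aK.toSMul algK.toSMul (Algebra.toSMul (R := ℂ) (A := LS)) :=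
    IsScalarTower.of_algebraMap_eq (R := ℂ) (S := G.K) (A := LS) fun c => by
      rw [hι, AlgHom.commutes, algMap, sb_C]
  have hfd := G.fin
  have hgal := G.gal
  have hroot : ∀ f : G.K, ∃ y : LS, y ^ N = algebraMap G.K LS f := fun f =>
    exists_root N hN _ (dvd_order_sb N hN _)
  -- a root of unity
  have hζC : IsPrimitiveRoot (Complex.exp (2 * Real.pi * Complex.I / (N : ℕ))) N :=
    Complex.isPrimitiveRoot_exp N hN.ne'
  set ζ0 : ℂ := Complex.exp (2 * Real.pi * Complex.I / (N : ℕ)) with hζ0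
  have hζF : IsPrimitiveRoot (algebraMap ℂ (ℂ⟮G.p⟯) ζ0) N :=
    hζC.map_of_injective (algebraMap ℂ (ℂ⟮G.p⟯)).injective
  have hcF : CharZero (ℂ⟮G.p⟯) :=
    charZero_of_injective_algebraMap (algebraMap ℂ (ℂ⟮G.p⟯)).injective
  -- representatives of the classes
  let t : G.V N → G.U N := Quotient.out
  have ht : ∀ f : G.U N, ∃ v : G.V N, ∃ g : G.Kˣ, (f : G.Kˣ) = (t v : G.Kˣ) * g ^ N := by
    intro f
    refine ⟨(QuotientGroup.mk f : G.V N), ?_⟩
    have h1 : (QuotientGroup.mk (t (QuotientGroup.mk f : G.V N)) : G.V N) = QuotientGroup.mk f :=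
      Quotient.out_eq _
    have h2 := QuotientGroup.eq.1 h1
    rw [Subgroup.mem_subgroupOf] at h2
    obtain ⟨g, hg⟩ := G.mem_pw.1 h2
    refine ⟨g, ?_⟩
    rw [hg]
    simp
  choose r hr using fun v : G.V N => hroot ((t v : G.Kˣ) : G.K)
  let Y : Set LS := Set.range r
  have hYf : Y.Finite := Set.finite_range r
  let L : IntermediateField G.K LS := IntermediateField.adjoin G.K Y
  have hCL : ∀ c : ℂ, algebraMap ℂ LS c ∈ L := fun c => by
    rw [IsScalarTower.algebraMap_apply ℂ G.K LS]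
    exact IntermediateField.algebraMap_mem L _
  have memL : ∀ (f : G.Kˣ), f ∈ G.U N → ∀ y : LS, y ^ N = algebraMap G.K LS (f : G.K) → y ∈ L := by
    intro f hf y hy
    obtain ⟨v, g, hg⟩ := ht ⟨f, hf⟩
    have hrv : r v ∈ L := IntermediateField.subset_adjoin _ _ ⟨v, rfl⟩
    have hgL : algebraMap G.K LS (g : G.K) ∈ L := IntermediateField.algebraMap_mem L _
    have hz0 : r v * algebraMap G.K LS (g : G.K) ≠ 0 := by
      refine mul_ne_zero ?_ ((map_ne_zero _).2 g.ne_zero)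
      intro h0
      have h1 := hr v
      rw [h0, zero_pow hN.ne'] at h1
      exact (map_ne_zero (algebraMap G.K LS)).2 (t v : G.Kˣ).ne_zero h1.symm
    have h2 : (y / (r v * algebraMap G.K LS (g : G.K))) ^ N = 1 := by
      rw [div_pow, mul_pow, hr v, ← map_pow, ← map_mul, hy]
      have h3 : (f : G.K) = ((t v : G.Kˣ) : G.K) * (g : G.K) ^ N := by
        have h4 := congrArg Units.val hg
        simpa using h4
      rw [h3, div_self]
      rw [← h3]
      exact (map_ne_zero _).2 f.ne_zero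
    obtain ⟨i, -, hi⟩ := (hζC.map_of_injective
      (algebraMap ℂ LS).injective).eq_pow_of_pow_eq_one h2
    have h5 : y = algebraMap ℂ LS (ζ0 ^ i) * (r v * algebraMap G.K LS (g : G.K)) := by
      rw [map_pow, hi, div_mul_cancel₀ _ hz0]
    rw [h5]
    exact mul_mem (hCL _) (mul_mem hrv hgL)
  -- `L` over `F`
  let Y' : Set L := {x | (x : LS) ∈ Y}
  have hY'f : Y'.Finite := hYf.preimage (Subtype.val_injective.injOn)
  have htop : IntermediateField.adjoin G.K Y' = ⊤ := by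
    apply IntermediateField.lift_injective L
    rw [IntermediateField.lift_adjoin, IntermediateField.lift_top]
    have h1 : (Subtype.val '' Y' : Set LS) = Y := by
      ext x
      constructor
      · rintro ⟨y, hy, rfl⟩
        exact hy
      · intro hx
        exact ⟨⟨x, IntermediateField.subset_adjoin _ _ hx⟩, hx, rfl⟩
    rw [h1]
  have hY'r : ∀ y ∈ Y', ∃ v : G.V N, y ^ N = algebraMap G.K L ((t v : G.Kˣ) : G.K) := by
    rintro y ⟨v, hv⟩
    refine ⟨v, ?_⟩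
    apply Subtype.val_injective
    change (y : LS) ^ N = algebraMap G.K LS _
    rw [← hv, hr v]
  have hrL : ∀ (f : G.Kˣ), f ∈ G.U N → ∃ z : L, z ^ N = algebraMap G.K L (f : G.K) := by
    intro f hf
    obtain ⟨y, hy⟩ := hroot (f : G.K)
    exact ⟨⟨y, memL f hf y hy⟩, Subtype.val_injective hy⟩
  have hconj : ∀ y ∈ Y', ∃ f : G.K, y ^ N = algebraMap G.K L f ∧
      ∀ g : G.K ≃ₐ[ℂ⟮G.p⟯] G.K, ∃ z : L, z ^ N = algebraMap G.K L (g f) := by
    intro y hy
    obtain ⟨v, hv⟩ := hY'r y hy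
    refine ⟨_, hv, fun g => ?_⟩
    let h : G.Kˣ := Units.map (g : G.K →* G.K) (t v : G.Kˣ)
    have hh : (h : G.K) = g ((t v : G.Kˣ) : G.K) := rfl
    obtain ⟨z, hz⟩ := hrL h (gal_U G N g _ h (t v).2 hh)
    exact ⟨z, by rw [hz, hh]⟩
  obtain ⟨hFL, hgL⟩ := tower_normal (F := ℂ⟮G.p⟯) (K := G.K) (L := L) N hN _ hζF Y' hY'f htop hconj
  have hpL : IsPGroup 2 (L ≃ₐ[ℂ⟮G.p⟯] L) :=
    tower_two (F := ℂ⟮G.p⟯) (K := G.K) (L := L) G.two n _ hζF Y' htop fun y hy => by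
      obtain ⟨v, hv⟩ := hY'r y hy
      exact ⟨_, hv⟩
  -- `σ` on `L`
  have hst : ∀ (σ : ℂ ≃+* ℂ) (φ : G.K ≃+* G.K) (_ : ∀ x, G.e (φ x) = cm σ (G.e x)) (x : LS),
      x ∈ L → cm σ x ∈ L := by
    intro σ φ hφ x hx
    refine IntermediateField.adjoin_induction G.K (p := fun x _ => cm σ x ∈ L) ?_ ?_ ?_ ?_ ?_ hx
    · rintro _ ⟨v, rfl⟩
      let h : G.Kˣ := Units.map (φ : G.K →* G.K) (t v : G.Kˣ)
      have hh : (h : G.K) = φ ((t v : G.Kˣ) : G.K) := rfl
      refine memL h (phi_U hB hφ N _ h (t v).2 hh) _ ?_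
      rw [← map_pow, hr v, hι, hι, hh, hφ, cm_sb]
    · intro a
      rw [hι, cm_sb, ← hφ, ← hι]
      exact IntermediateField.algebraMap_mem L _
    · intro a b _ _ ha hb
      rw [map_add]
      exact add_mem ha hb
    · intro a _ ha
      rw [map_inv₀]
      exact inv_mem ha
    · intro a b _ _ ha hb
      rw [map_mul]
      exact mul_mem ha hb
  have hφs : ∀ x, G.e (φ.symm x) = cm σ.symm (G.e x) := phi_symm hφ
  let S : L ≃+* L :=
    { toFun := fun x => ⟨cm σ x, hst σ φ hφ _ x.2⟩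
      invFun := fun x => ⟨cm σ.symm x, hst σ.symm φ.symm hφs _ x.2⟩
      left_inv := fun x => Subtype.val_injective (cm_symm σ _)
      right_inv := fun x => Subtype.val_injective (cm_symm σ.symm _)
      map_mul' := fun x y => Subtype.val_injective (map_mul (cm σ) _ _)
      map_add' := fun x y => Subtype.val_injective (map_add (cm σ) _ _) }
  have hSK : ∀ x : G.K, S (algebraMap G.K L x) = algebraMap G.K L (φ x) := by
    intro x
    apply Subtype.val_injective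
    change cm σ (algebraMap G.K LS x) = algebraMap G.K LS (φ x)
    rw [hι, hι, cm_sb, hφ]
  have hSKs : ∀ x : G.K, S.symm (algebraMap G.K L x) = algebraMap G.K L (φ.symm x) := by
    intro x
    rw [RingEquiv.symm_apply_eq, hSK, RingEquiv.apply_symm_apply]
  have hFK : ∀ x : ℂ⟮G.p⟯, algebraMap (ℂ⟮G.p⟯) L x = algebraMap G.K L (x : G.K) := fun x => rfl
  have h1 : ∀ x : ℂ⟮G.p⟯, ∃ y : ℂ⟮G.p⟯, S (algebraMap (ℂ⟮G.p⟯) L x) = algebraMap (ℂ⟮G.p⟯) L y := by
    intro x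
    exact ⟨⟨φ x, phi_F hB hφ _ x.2⟩, by rw [hFK, hSK, hFK]⟩
  have h2 : ∀ x : ℂ⟮G.p⟯, ∃ y : ℂ⟮G.p⟯, S.symm (algebraMap (ℂ⟮G.p⟯) L x) =
      algebraMap (ℂ⟮G.p⟯) L y := by
    intro x
    exact ⟨⟨φ.symm x, phi_F hB hφs _ x.2⟩, by rw [hFK, hSKs, hFK]⟩
  have hCK : ∀ c : ℂ, algebraMap ℂ L c = algebraMap G.K L (algebraMap ℂ G.K c) := fun c => by
    apply Subtype.val_injective
    change algebraMap ℂ LS c = algebraMap G.K LS _
    rw [IsScalarTower.algebraMap_apply ℂ G.K LS]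
  have hSrat : ∀ s : ℚ, S (algebraMap ℂ L (s : ℂ)) = algebraMap ℂ L (s : ℂ) := by
    intro s
    rw [hCK, hSK, phi_C hφ, map_ratCast]
  have h3 : ∀ s : L, (∃ a : ℂ⟮G.p⟯, s ^ 2 = algebraMap (ℂ⟮G.p⟯) L a) →
      ∃ c : ℂ⟮G.p⟯, S s = algebraMap (ℂ⟮G.p⟯) L c * s := by
    intro s ⟨a, ha⟩
    by_cases hs : s = 0
    · exact ⟨1, by rw [hs, map_zero, mul_zero]⟩
    have hmap : (IntermediateField.adjoin ℂ {algebraMap G.K L G.p} : IntermediateField ℂ L) =
        (ℂ⟮G.p⟯).map (IsScalarTower.toAlgHom ℂ G.K L) := by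
      rw [IntermediateField.adjoin_map, Set.image_singleton]
      rfl
    have hsp : s ^ 2 ∈ IntermediateField.adjoin ℂ {algebraMap G.K L G.p} := by
      rw [hmap, ha]
      exact ⟨(a : G.K), a.2, rfl⟩
    obtain ⟨T, q, hT, hq, hsq⟩ := quad (k := ℂ) (K := G.K) (L := L) G.p
      {a : ℂ | ∃ s ∈ G.S, a = (s : ℂ)} N hN Y' htop (by
        intro a ha
        obtain ⟨θ, hθ⟩ := G.pt a (fun s hs h => ha ⟨s, hs, h⟩)
        refine ⟨θ, hθ, fun y hy => ?_⟩
        obtain ⟨v, hv⟩ := hY'r y hy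
        exact ⟨_, hv, (t v).2 a (fun s hs h => ha ⟨s, hs, h⟩) θ hθ⟩) s hs hsp
    rw [hmap] at hq
    obtain ⟨q0, hq0, hq1⟩ := hq
    have hq1' : algebraMap G.K L q0 = q := hq1
    have hq00 : q ≠ 0 := by
      rintro rfl
      rw [zero_pow two_ne_zero, zero_mul] at hsq
      exact hs (pow_eq_zero_iff two_ne_zero |>.1 hsq)
    have hq0n : q0 ≠ 0 := by
      rintro rfl
      rw [map_zero] at hq1'
      exact hq00 hq1'.symm
    have hSP : S (∏ b ∈ T, (algebraMap G.K L G.p - algebraMap ℂ L b)) =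
        ∏ b ∈ T, (algebraMap G.K L G.p - algebraMap ℂ L b) := by
      rw [map_prod]
      refine Finset.prod_congr rfl fun b hb => ?_
      obtain ⟨s0, -, hs0⟩ := hT hb
      rw [map_sub, hSK, phi_R hB hφ _ G.pR, hs0, hSrat]
    have hw : (s / q) ^ 2 = ∏ b ∈ T, (algebraMap G.K L G.p - algebraMap ℂ L b) := by
      rw [div_pow, hsq, mul_div_cancel_left₀ _ (pow_ne_zero 2 hq00)]
    have hSw : (S (s / q)) ^ 2 = (s / q) ^ 2 := by
      rw [← map_pow, hw, hSP]
    have hSq : S q = algebraMap G.K L (φ q0) := by rw [← hq1', hSK]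
    have hsd : s = (s / q) * q := (div_mul_cancel₀ _ hq00).symm
    have hSs : S s = S (s / q) * algebraMap G.K L (φ q0) := by
      conv_lhs => rw [hsd]
      rw [map_mul, hSq]
    rcases sq_eq_sq_iff_eq_or_eq_neg.1 hSw with h5 | h5
    · refine ⟨⟨φ q0 / q0, div_mem (phi_F hB hφ _ hq0) hq0⟩, ?_⟩
      rw [hFK, hSs, h5]
      change _ = algebraMap G.K L (φ q0 / q0) * s
      rw [map_div₀, hq1']
      field_simp
    · refine ⟨⟨-(φ q0 / q0), neg_mem (div_mem (phi_F hB hφ _ hq0) hq0)⟩, ?_⟩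
      rw [hFK, hSs, h5]
      change _ = algebraMap G.K L (-(φ q0 / q0)) * s
      rw [map_neg, map_div₀, hq1']
      field_simp
  have h0 : (-1 : L) ≠ 1 := by
    intro h
    have hc : CharZero L := charZero_of_injective_algebraMap (algebraMap ℂ L).injective
    have h4 : (2 : L) = 0 := by
      have : (1 : L) + 1 = 0 := by nth_rewrite 1 [← h]; ring
      rw [← this]; norm_num
    exact two_ne_zero h4
  obtain ⟨k, hk⟩ := exists_triv (F := ℂ⟮G.p⟯) (L := L) hpL S h1 h2 h3 h0 n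
  have hSpow : ∀ (m : ℕ) (x : G.K), (S ^ m) (algebraMap G.K L x) = algebraMap G.K L ((φ ^ m) x) := by
    intro m
    induction m with
    | zero => intro x; rfl
    | succ m ih =>
      intro x
      rw [pow_succ, pow_succ]
      change (S ^ m) (S (algebraMap G.K L x)) = algebraMap G.K L ((φ ^ m) (φ x))
      rw [hSK, ih]
  refine ⟨k, fun f hf => ?_⟩
  obtain ⟨y, hy⟩ := hrL f hf
  have hfK : algebraMap G.K L (f : G.K) ≠ 0 := (map_ne_zero _).2 f.ne_zero
  have hy0 : y ≠ 0 := by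
    rintro rfl
    rw [zero_pow hN.ne'] at hy
    exact hfK hy.symm
  obtain ⟨u, ⟨u0, hu0⟩, hu1, -, hu2⟩ := hk
    (IsScalarTower.toAlgHom (ℂ⟮G.p⟯) G.K L).fieldRange y hy0 ⟨(f : G.K), hy.symm⟩
  have hu0' : algebraMap G.K L u0 = u := hu0
  refine ⟨u0, ?_, ?_⟩
  · rintro rfl
    rw [map_zero] at hu0'
    exact hu1 hu0'.symm
  · apply (algebraMap G.K L).injective
    rw [← hSpow, ← hy, hu2, map_mul, map_pow, hu0', hy]

end Vale.Agent.P022.H565.TwoG
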